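import Vale.Agent.P225.Assembly.Ideal
import Vale.Agent.P225.Stage.TessPoint

/-!
P225, assembly: the band rows and the other rows together are all nonconstant points.
-/

noncomputable section

namespace Vale.Agent.P225

open Matrix SU2
open scoped ComplexOrder Matrix.Norms.L2Operator

attribute [local irreducible] band

lemma adaptBasis_eq_tess (x y : BPt) : adaptBasis x y = tessMat 20 x.1 y.1 := rfl

lemma adaptBasis_mul_star : adaptBasis * adaptBasisᴴ = 1 := by
  ext x y
  have h := congrFun (congrFun (tessMat_unitary (K := 20)).2 x.1) y.1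
  rw [Matrix.mul_apply] at h
  have hsum : ∑ z : PntK 20, tessMat 20 x.1 z * (tessMat 20)ᴴ z y.1 =
      ∑ z : BPt, tessMat 20 x.1 z.1 * (tessMat 20)ᴴ z.1 y.1 := by
    classical
    refine (Fintype.sum_subtype_add_sum_subtype (fun z : PntK 20 => lab z.out ∈ band)
      fun z => tessMat 20 x.1 z * (tessMat 20)ᴴ z y.1).symm.trans (add_eq_left.2 ?_)
    refine Finset.sum_eq_zero fun z _ => mul_eq_zero_of_left (tessMat_apply_ne ?_) _
    intro he
    have he' : lab x.1.out = lab z.1.out :=
      congrArg (fun t : {t : Fin 3 → Fin 21 // LblOK fun k => (t k : ℕ)} => fun k => (t.1 k : ℕ)) he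
    exact z.2 (he' ▸ x.2)
  rw [hsum] at h
  rw [Matrix.mul_apply, Matrix.one_apply]
  rw [Matrix.one_apply] at h
  simp only [Subtype.coe_inj] at h
  exact h

lemma bIdx_out (K : ℕ) (x : BPt) : (bIdx K x).out = x.1.out := rfl

lemma bIdx_injective (K : ℕ) : Function.Injective (bIdx K) := fun x y h =>
  Subtype.ext (PntK.out_injective (by rw [← bIdx_out K x, ← bIdx_out K y, h]))

lemma lab_bIdx_mem (K : ℕ) (x : BPt) : lab (bIdx K x).out ∈ band := x.2

lemma band_ne_zero {t : Lbl} (h : t ∈ band) : t ≠ 0 := (mem_band.1 h).2.2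

lemma exists_bIdx {K : ℕ} {x : PntK (K + 40)} (h : lab x.out ∈ band) : ∃ y, bIdx K y = x := by
  obtain ⟨⟨t, ht⟩, m⟩ := x
  have hlt : ∀ k, (t k : ℕ) < 20 + 1 := fun k =>
    lt_trans ((mem_band.1 h).lt16 k) (by norm_num)
  exact ⟨⟨⟨⟨fun k => ⟨t k, hlt k⟩, ht⟩, m⟩, h⟩, rfl⟩

open Classical in
/-- The two lifts together are the projection to the nonconstant points. -/
lemma lift_decomp (K : ℕ) :
    bandLift K * (bandLift K)ᴴ + qLift K * (qLift K)ᴴ =
      diagonal fun x : PntK (K + 40) => if lab x.out = 0 then (0 : ℂ) else 1 := by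
  rw [bandLift, conjTranspose_mul, Matrix.mul_assoc, ← Matrix.mul_assoc adaptBasis,
    adaptBasis_mul_star, Matrix.one_mul]
  ext x y
  rw [Matrix.add_apply, Matrix.mul_apply, Matrix.mul_apply, Matrix.diagonal_apply]
  simp only [qLift, Matrix.submatrix_apply, id_eq, Matrix.conjTranspose_apply, Matrix.one_apply]
  by_cases hx : lab x.out ∈ band
  · obtain ⟨a, rfl⟩ := exists_bIdx hx
    have hq : ∀ z : QPt (K + 40), bIdx K a ≠ z.1 := fun z h => z.2.1 (h ▸ hx)
    rw [Finset.sum_eq_single a, if_pos rfl, Finset.sum_eq_zero fun z _ => mul_eq_zero_of_left (if_neg (hq z)) _,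
      if_neg (band_ne_zero hx)]
    · rw [one_mul, add_zero]
      by_cases hy : bIdx K a = y
      · subst hy; rw [if_pos rfl, star_one]
      · rw [if_neg (Ne.symm hy), if_neg hy, star_zero]
    · intro b _ hb
      rw [if_neg fun h => hb (bIdx_injective K h).symm, zero_mul]
    · simp
  · have hb : ∀ z : BPt, x ≠ bIdx K z := fun z h => hx (h ▸ lab_bIdx_mem K z)
    rw [Finset.sum_eq_zero fun z _ => mul_eq_zero_of_left (if_neg (hb z)) _, zero_add]
    by_cases h0 : lab x.out = 0
    · have hq : ∀ z : QPt (K + 40), x ≠ z.1 := fun z h => z.2.2 (h ▸ h0)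
      rw [Finset.sum_eq_zero fun z _ => mul_eq_zero_of_left (if_neg (hq z)) _, if_pos h0,
        ite_self]
    · rw [Finset.sum_eq_single (⟨x, hx, h0⟩ : QPt (K + 40)), if_pos rfl, if_neg h0]
      · rw [one_mul]
        by_cases hy : x = y
        · subst hy; rw [if_pos rfl, star_one]
        · rw [if_neg (Ne.symm hy), if_neg hy, star_zero]
      · intro b _ hb'
        rw [if_neg fun h => hb' (Subtype.ext h.symm), zero_mul]
      · simp

lemma bandLift_row_zero {K : ℕ} {x : PntK (K + 40)} (hx : lab x.out = 0) (b : BPt) :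
    bandLift K x b = 0 := by
  rw [bandLift, Matrix.mul_apply]
  refine Finset.sum_eq_zero fun z _ => ?_
  have : x ≠ bIdx K z := fun h => band_ne_zero (lab_bIdx_mem K z) (h ▸ hx)
  simp [Matrix.one_apply, this]

lemma qLift_row_zero {K : ℕ} {x : PntK (K + 40)} (hx : lab x.out = 0) (b : QPt (K + 40)) :
    qLift K x b = 0 := by
  have : x ≠ b.1 := fun h => b.2.2 (h ▸ hx)
  simp [qLift, Matrix.one_apply, this]

/-- A map which splits the constants agrees with any map equal to it on nonconstant points. -/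
lemma mul_lift_eq {K : ℕ} {T Raw : Matrix (PntK (K + 40)) (PntK (K + 40)) ℂ} {W : Matrix (PntK (K + 40)) BPt ℂ}
    (hconst : ∀ x y, (lab x.out = 0 ↔ lab y.out ≠ 0) → T x y = 0)
    (heq : ∀ x y, lab x.out ≠ 0 → lab y.out ≠ 0 → T x y = Raw x y)
    (hW : ∀ y b, lab y.out = 0 → W y b = 0) :
    (HMul.hMul T W : Matrix (PntK (K + 40)) BPt ℂ) =
      HMul.hMul (bandLift K * (bandLift K)ᴴ + qLift K * (qLift K)ᴴ)
        (HMul.hMul Raw W : Matrix (PntK (K + 40)) BPt ℂ) := by
  classical
  rw [lift_decomp]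
  ext x b
  rw [Matrix.diagonal_mul, Matrix.mul_apply, Matrix.mul_apply]
  by_cases hx : lab x.out = 0
  · rw [if_pos hx, zero_mul]
    refine Finset.sum_eq_zero fun y _ => ?_
    by_cases hy : lab y.out = 0
    · rw [hW y b hy, mul_zero]
    · rw [hconst x y (iff_of_true hx hy), zero_mul]
  · rw [if_neg hx, one_mul]
    refine Finset.sum_congr rfl fun y _ => ?_
    by_cases hy : lab y.out = 0
    · rw [hW y b hy, mul_zero, mul_zero]
    · rw [heq x y hx hy]

end Vale.Agent.P225
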